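import Vale.Agent.P038.Second

/-!
# P038: second neighbourhoods with small codegree or without a fixed bipartite subgraph
-/

namespace Vale.Agent.Results.P038.BipartiteFree

open Vale.Agent.P038

theorem result :
    (∀ K L : ℕ, ∀ (V : Type) [Fintype V] [Nonempty V] (D : V → V → Prop),
      (∀ a b, D a b → ¬ D b a) →
      (∀ a b : V, a ≠ b → {x | (D a x ∨ D x a) ∧ (D b x ∨ D x b)}.ncard ≤ L) →
      ((∀ u, (2 * K + 1) * L ≤ 2 * {x | D u x}.ncard) ∨ (K = 1 ∧ L ≤ 1)) →
      ∃ v, K * {u | D v u}.ncard ≤ {w | w ≠ v ∧ ¬ D v w ∧ ∃ u, D v u ∧ D u w}.ncard) ∧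
    (∀ s K : ℕ, 2 ≤ s → ∀ (V : Type) [Fintype V] [Nonempty V] (D : V → V → Prop),
      (∀ a b, D a b → ¬ D b a) →
      (∀ A B : Finset V, A.card = s → B.card = s → ¬ ∀ a ∈ A, ∀ b ∈ B, D a b ∨ D b a) →
      (∀ u, s * (2 * K + 4) ^ s < {x | D u x}.ncard) →
      ∃ v, K * {u | D v u}.ncard ≤ {w | w ≠ v ∧ ¬ D v w ∧ ∃ u, D v u ∧ D u w}.ncard) := by
  classical
  refine ⟨fun K L V _ _ D hor hco hdeg => ?_, fun s K hs V _ _ D hor hfree hbig => ?_⟩
  all_goals
    classical
    obtain ⟨v, -, hv⟩ :=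
      Finset.exists_min_image Finset.univ (fun u : V => (outF D u).card) Finset.univ_nonempty
    refine ⟨v, ?_⟩
    have e1 : ∀ x, {u | D x u}.ncard = (outF D x).card := fun x => by
      rw [← Set.ncard_coe_finset]; congr 1; ext; simp [outF]
    have e2 : {w | w ≠ v ∧ ¬ D v w ∧ ∃ u, D v u ∧ D u w}.ncard = (secF D v).card := by
      rw [← Set.ncard_coe_finset]; congr 1; ext; simp [secF]
    rw [e1, e2]
  · refine second_codegree hor (fun a b h => ?_) v (fun u => hv u (Finset.mem_univ u))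
      (hdeg.imp_left fun h => by rw [← e1]; exact h v)
    refine le_of_eq_of_le ?_ (hco a b h)
    rw [← Set.ncard_coe_finset]; congr 1; ext; simp [comF]
  · exact second_kss hor hs hfree v (fun u => hv u (Finset.mem_univ u)) (by rw [← e1]; exact hbig v)

end Vale.Agent.Results.P038.BipartiteFree
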